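import Crest.Agent.N250.Gc.Var2
import Crest.Agent.N250.Nq.Defs

/-!
# Row 250 (helper48): at a solution the bulk term of the first variation is the combination of the
variations of the pairings
-/

set_option autoImplicit false
set_option linter.unusedSectionVars false
open MeasureTheory Set Filter Topology

noncomputable section

namespace Crest.Agent.N250

open Gc WS Cj

variable {X : Type} [TopologicalSpace X] [MeasurableSpace X] {G : Geo X} {J κ : Type}
  [Fintype J] [Fintype κ]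

theorem WS.Geo.varC_sum (c : κ → ℂ) (g g' : κ → G.SmC) (Y V : Fin 3 → G.SmC) (p : X) :
    G.varC (∑ k, c k • g k) Y (∑ k, c k • g' k) V p = ∑ k, c k * G.varC (g k) Y (g' k) V p := by
  have e : ∀ f : κ → G.SmC, (∑ k, c k • f k).1 p = ∑ k, c k * (f k).1 p := fun f => by
    rw [← Cj.ev_apply, map_sum]; rfl
  have d : ∀ a, G.SC.D a (∑ k, c k • g k) = ∑ k, c k • G.SC.D a (g k) := fun a => by
    simp only [← G.DL_apply, map_sum, map_smul]
  simp only [Geo.varC, d, e, Fin.sum_univ_three, Finset.sum_mul, mul_add, mul_sub, Finset.mul_sum,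
    Finset.sum_add_distrib, Finset.sum_sub_distrib, Finset.sum_div]
  simp only [← Finset.sum_add_distrib, ← Finset.sum_sub_distrib]
  exact Finset.sum_congr rfl fun k _ => by ring

namespace Nq.Dt

variable (D : Dt G J κ) {u u' : G.SmC} {T : Mt J} {c : κ → ℂ} {p : X} {V : Fin 3 → G.SmC}

theorem mul_ph (u : G.SmC) (c : κ → ℂ) : u * D.ph c = ∑ k, c k • (G.oR (D.φ k) * u) := by
  simp only [ph, Finset.mul_sum, mul_smul_comm, mul_comm]

/-- the cleared form of the equation -/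
theorem eq_clear (n : D.Nd u T c p) (e : D.EQ u T c p = 0) :
    (G.SC.ELX (D.Xh u T)).1 p * (D.NZ u T).1 p * (1 - u.1 p * (D.ph c).1 p) =
      2 * (G.SC.GX (D.Xh u T)).1 p * (D.Mu u T c).1 p := by
  have h1 := n.GX
  have h2 := n.NZ
  have h3 := n.d3
  rw [EQ, sub_eq_zero] at e
  field_simp at e
  linear_combination e

theorem bulk_on (n : D.Nd u T c p) (e : D.EQ u T c p = 0)
    (hV : ∀ a, (V a).1 p = u'.1 p * (D.VV T a).1 p) :
    G.bulkC 1 (D.Xh u T) V p = G.varC (u * D.ph c) (D.Xh u T) (u' * D.ph c) V p := by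
  have k := D.eq_clear n e
  have s := Act.sqrt_sq' (z := (G.SC.GX (D.Xh u T)).1 p)
  have s0 : Complex.sqrt ((G.SC.GX (D.Xh u T)).1 p) ≠ 0 := fun h => n.GX (by rw [← s, h]; simp)
  have hv : ∀ w : Fin 3 → ℂ, dot w (val V p) = u'.1 p * dot w (val (D.VV T) p) := fun w => by
    simp only [dot, val, hV, Fin.sum_univ_three]; ring
  have m : (D.Mu u T c).1 p = (G.SC.GX (D.Xh u T)).1 p * (D.ph c).1 p - ∑ a,
      dot (val (G.SC.WX (D.Xh u T) a) p) (val (D.VV T) p) * (G.SC.D a (u * D.ph c)).1 p := by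
    rw [← Cj.ev_apply, Mu, map_sub, map_sum]
    simp only [← dot_val]
    rfl
  rw [NZ, dot_val, m] at k
  have k2 : (Complex.sqrt ((G.SC.GX (D.Xh u T)).1 p))⁻¹ ^ 3 * ((G.SC.ELX (D.Xh u T)).1 p *
      dot (val (G.SC.NX (D.Xh u T)) p) (val (D.VV T) p) * (1 - u.1 p * (D.ph c).1 p)) / 2 =
      Complex.sqrt ((G.SC.GX (D.Xh u T)).1 p) * (D.ph c).1 p -
        (Complex.sqrt ((G.SC.GX (D.Xh u T)).1 p))⁻¹ * ∑ a, dot (val (G.SC.WX (D.Xh u T) a) p)
          (val (D.VV T) p) * (G.SC.D a (u * D.ph c)).1 p := by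
    rw [k]
    generalize Complex.sqrt ((G.SC.GX (D.Xh u T)).1 p) = r at s s0 ⊢
    rw [← s]
    field_simp
  simp only [Geo.bulkC, Geo.varC, hv, Fin.sum_univ_three] at k2 ⊢
  change 1 * _ = _ * (u'.1 p * (D.ph c).1 p * _ + u.1 p * (D.ph c).1 p * _ / 2 - _)
  linear_combination Complex.exp (-(dot (D.Xh u T) (D.Xh u T)).1 p / 4) * u'.1 p * k2

theorem tsupp_mul (k : κ) (u : G.SmC) : tsupport (G.oR (D.φ k) * u).1 ⊆ tsupport (D.φ k).1 :=
  closure_mono fun p hp h => hp (by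
    change ((D.φ k).1 p : ℂ) * u.1 p = 0
    rw [h, Complex.ofReal_zero, zero_mul])

theorem varC_off {k : κ} (hp : p ∉ tsupport (D.φ k).1) (Y : Fin 3 → G.SmC) :
    G.varC (G.oR (D.φ k) * u) Y (G.oR (D.φ k) * u') V p = 0 := by
  have h := fun u : G.SmC => image_eq_zero_of_notMem_tsupport fun h => hp (D.tsupp_mul k u h)
  simp only [Geo.varC, h, G.D_zero_off fun h => hp (D.tsupp_mul k u h), zero_mul,
    Finset.sum_const_zero, mul_zero, zero_div, add_zero, sub_self]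

theorem ELX_off (n : D.Nd u T c p) (e : D.EQ u T c p = 0) (hp : ∀ k, p ∉ tsupport (D.φ k).1) :
    (G.SC.ELX (D.Xh u T)).1 p = 0 := by
  have k := D.eq_clear n e
  have h0 : (D.ph c).1 p = 0 := by
    rw [← Cj.ev_apply, ph, map_sum]
    refine Finset.sum_eq_zero fun k _ => ?_
    change c k * ((D.φ k).1 p : ℂ) = 0
    rw [image_eq_zero_of_notMem_tsupport (hp k), Complex.ofReal_zero, mul_zero]
  have h1 : ∀ a, (G.SC.D a (u * D.ph c)).1 p = 0 := fun a => by
    rw [mul_ph, ← G.DL_apply, map_sum, ← Cj.ev_apply, map_sum]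
    refine Finset.sum_eq_zero fun k _ => ?_
    rw [map_smul]
    change c k * (G.SC.D a (G.oR (D.φ k) * u)).1 p = 0
    rw [G.D_zero_off fun h => hp k (D.tsupp_mul k u h), mul_zero]
  have m : (D.Mu u T c).1 p = 0 := by
    rw [← Cj.ev_apply, Mu]
    simp only [map_sub, map_mul, map_sum, Cj.ev_apply, h0, h1, mul_zero, Finset.sum_const_zero,
      sub_self]
  rw [m, h0, mul_zero, mul_zero, sub_zero, mul_one] at k
  exact (mul_eq_zero.1 k).resolve_right n.NZ

/-- the hypotheses on the weight `ze`, the solution `(u, T, c)` and the variation `(u', V)` -/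
structure Bk (ze u : G.SmC) (T : Mt J) (c : κ → ℂ) (u' : G.SmC) (V : Fin 3 → G.SmC) : Prop where
  one : ∀ k, ∀ p ∈ tsupport (D.φ k).1, ze.1 p = 1
  on : ∀ k, ∀ p ∈ tsupport (D.φ k).1, D.Nd u T c p ∧ D.EQ u T c p = 0
  off : ∀ p, ze.1 p ≠ 0 → (∀ k, p ∉ tsupport (D.φ k).1) → (G.SC.ELX (D.Xh u T)).1 p = 0
  var : ∀ k, ∀ p ∈ tsupport (D.φ k).1, ∀ a, (V a).1 p = u'.1 p * (D.VV T a).1 p

variable {D} {ze : G.SmC}

/-- pointwise -/
theorem Bk.pt (h : D.Bk ze u T c u' V) (p : X) : G.bulkC ze (D.Xh u T) V p =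
    ∑ k, c k * G.varC (G.oR (D.φ k) * u) (D.Xh u T) (G.oR (D.φ k) * u') V p := by
  by_cases hp : ∀ k, p ∉ tsupport (D.φ k).1
  · simp only [D.varC_off (hp _), mul_zero, Finset.sum_const_zero]
    by_cases hz : ze.1 p = 0
    · rw [Geo.bulkC, hz, zero_mul]
    · simp only [Geo.bulkC, h.off p hz hp, mul_zero, zero_mul, zero_div]
  · push Not at hp
    obtain ⟨k, hk⟩ := hp
    have h1 := h.one k p hk
    obtain ⟨n, e⟩ := h.on k p hk
    rw [← Geo.varC_sum, ← mul_ph, ← mul_ph, ← D.bulk_on n e (h.var k p hk), Geo.bulkC, h1]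
    rfl

variable [BorelSpace X] [T2Space X] [SecondCountableTopology X]

/-- integrated -/
theorem Bk.int (h : D.Bk ze u T c u' V) (hc : ∀ k, HasCompactSupport (D.φ k).1)
    (hs : ∀ k, ∀ p ∈ tsupport (D.φ k).1, (G.SC.GX (D.Xh u T)).1 p ∈ Complex.slitPlane) :
    Integrable (G.bulkC ze (D.Xh u T) V) G.M.mu ∧ ∫ p, G.bulkC ze (D.Xh u T) V p ∂G.M.mu =
      ∑ k, c k * ∫ p, G.varC (G.oR (D.φ k) * u) (D.Xh u T) (G.oR (D.φ k) * u') V p ∂G.M.mu := by
  have i := fun k => (G.int_dlag (hc k) (Y' := V) (D.tsupp_mul k u) (g' := G.oR (D.φ k) * u')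
    (fun p hp => image_eq_zero_of_notMem_tsupport fun h => hp (D.tsupp_mul k u' h)) (hs k)).1
  rw [funext h.pt]
  refine ⟨integrable_finset_sum _ fun k _ => (i k).const_mul _, ?_⟩
  rw [integral_finset_sum _ fun k _ => (i k).const_mul _]
  simp only [integral_const_mul]

/-- **BULK**: along a holomorphic family -/
theorem Bk.fam {W : Type} [NormedAddCommGroup W] [NormedSpace ℂ W] {U : Set W} {w : W → G.SmC}
    {T : W → Mt J} {z : W} (h : D.Bk ze (w z) (T z) c u' V) (hz : z ∈ U) (v : W)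
    (hF : ∀ k, G.HFam (tsupport (D.φ k).1) U (fun z => G.oR (D.φ k) * w z)
      fun z => D.Xh (w z) (T z))
    (h1 : ∀ k, ∀ p ∈ tsupport (D.φ k).1, fderiv ℂ (fun z => (w z).1 p) z v = u'.1 p ∧
      DifferentiableAt ℂ (fun z => (w z).1 p) z)
    (h2 : ∀ k, ∀ p ∈ tsupport (D.φ k).1, ∀ c,
      fderiv ℂ (fun z => (D.Xh (w z) (T z) c).1 p) z v = (V c).1 p)
    (h3 : ∀ k, ∀ p ∈ tsupport (D.φ k).1, ∀ a c,
      fderiv ℂ (fun z => (G.SC.D a (D.Xh (w z) (T z) c)).1 p) z v = (G.SC.D a (V c)).1 p) :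
    Integrable (G.bulkC ze (D.Xh (w z) (T z)) V) G.M.mu ∧
    ∫ p, G.bulkC ze (D.Xh (w z) (T z)) V p ∂G.M.mu = ∑ k, c k *
      fderiv ℂ (fun z => G.actC (G.oR (D.φ k) * w z) (D.Xh (w z) (T z))) z v := by
  obtain ⟨i1, i2⟩ := h.int (fun k => (hF k).cpt) fun k => (hF k).slit z hz
  refine ⟨i1, i2.trans (Finset.sum_congr rfl fun k _ => ?_)⟩
  rw [((hF k).fderiv_eq hz v (g' := G.oR (D.φ k) * u') (fun p hp =>
    image_eq_zero_of_notMem_tsupport fun h => hp (D.tsupp_mul k u' h)) (fun p hp => ?_) (h2 k)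
    (h3 k)).2]
  change fderiv ℂ (fun z => ((D.φ k).1 p : ℂ) * (w z).1 p) z v = ((D.φ k).1 p : ℂ) * u'.1 p
  rw [fderiv_const_mul (h1 k p hp).2, ← (h1 k p hp).1]
  rfl

end Nq.Dt

end Crest.Agent.N250

end
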