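import Crest.Agent.N250.Fv.Bulk
import Crest.Agent.N250.Vr.Inst

/-!
# Row 250 (helper48): the first variation of the core action at a solution
-/

set_option autoImplicit false
open MeasureTheory Set Filter Topology
open Crest.GeometryTopology.MCF

noncomputable section

namespace Crest.Agent.N250.R0.Fa

open WS Wr

variable {S : Mv} {T : St S} (F : Fa T) {σ : Scale T.G}

theorem ζA_one {k : F.I} {p : S.sl 0} (hp : p ∈ tsupport (F.φ k).1) : T.ζA.1 p = 1 :=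
  T.ze_off (by norm_num) fun j => (tube_or_off' T.sta (T.eR_lt (by norm_num)) (by linarith) p.2
    j).resolve_left ((F.supp k p hp).2 j)

/-- the equation on the core (`Mat.eq`) -/
def EqC (ξ : F.Ξ σ) : Prop := ∀ p : S.sl 0, (∀ j, ((p : E), (0 : ℝ)) ∉ tube T.e j (T.R + 1 / 3)) →
  F.EQ ξ p = 0 ∧ F.D.Nd (F.w ξ) (T.TT ξ.2.2) (F.c ξ) p

variable {F}

theorem EqC.bk {ξ : F.Ξ σ} (h : F.EqC ξ) (v : F.Ξ σ) :
    F.D.Bk (T.G.oR T.ζA) (F.w ξ) (T.TT ξ.2.2) (F.c ξ) (F.w v) (F.dY ξ v) where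
  one k p hp := by
    change (T.ζA.1 p : ℂ) = 1
    rw [F.ζA_one hp, Complex.ofReal_one]
  on k p hp := (h p fun j hj => (F.supp k p hp).2 j (tube_mono (by linarith) hj)).symm
  off p hz hp := by
    obtain ⟨e, n⟩ := h p fun j hj => hz (Complex.ofReal_eq_zero.2
      (zeta_zero (p := ((p : E), (0 : ℝ))) (by linarith) hj))
    exact F.D.ELX_off n e hp
  var _ _ hp a := F.dY_core ξ v hp a

variable {r : ℝ} (h : F.Vc σ r) {ξ : F.Ξ σ}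
include h

/-- the bulk term -/
theorem Vc.bulk (hξ : ‖ξ‖ < r) (e : F.EqC ξ) (v : F.Ξ σ) :
    ∫ p, T.G.bulkC (T.G.oR T.ζA) (F.Y ξ) (F.dY ξ v) p ∂T.G.M.mu =
      ∑ k, F.c ξ k * fderiv ℂ F.II ξ v k := by
  refine ((e.bk v).fam (w := F.w) (T := fun ξ => T.TT ξ.2.2) (mem_ball_zero_iff.2 hξ) v h.hf
    (fun k p hp => ⟨(h.fw p (F.φ_Kz k hp) ξ).eq v, (h.fw p (F.φ_Kz k hp) ξ).diff⟩)
    (fun k p hp c => (h.fY p (F.φ_Kz k hp) ξ c).eq v)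
    fun k p hp a c => (h.fJ p (F.φ_Kz k hp) ξ a c).eq v).2.trans ?_
  simp only [h.fII_apply hξ]
  rfl

/-- **first variation of the core action at a solution** -/
theorem Vc.core (hξ : ‖ξ‖ < r) (e : F.EqC ξ) (v : F.Ξ σ) :
    fderiv ℂ (fun z => T.AC (F.Y z)) ξ v = ∑ k, F.c ξ k * fderiv ℂ F.II ξ v k -
      ∫ p, T.G.fluxC (T.G.oR T.ζA) (F.Y ξ) (F.dY ξ v) p ∂T.G.M.mu := by
  rw [h.fAC hξ v, h.bulk hξ e]

/-- along a curve (`hC` of `Fv.glue_deriv`) -/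
theorem Vc.core_curve {ξ : ℂ → F.Ξ σ} {v : F.Ξ σ} {t : ℂ} (hd : HasDerivAt ξ v t)
    (hξ : ‖ξ t‖ < r) (e : F.EqC (ξ t)) : HasDerivAt (fun u => T.AC (F.Y (ξ u)))
      (∑ k, F.c (ξ t) k * fderiv ℂ F.II (ξ t) v k -
        ∫ p, T.G.fluxC (T.G.oR T.ζA) (F.Y (ξ t)) (F.dY (ξ t) v) p ∂T.G.M.mu) t := by
  rw [← h.core hξ e]
  exact (h.dAC hξ).hasFDerivAt.comp_hasDerivAt t hd

end Crest.Agent.N250.R0.Fa

end
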