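import Crest.Agent.N250.Act.Rot3
import Crest.Agent.N250.Cj.Area
import Crest.Agent.N250.Gc.Var2
import Crest.Agent.N250.B1.Sm4
import Crest.Agent.N250.B1.Far2

/-!
# Row 250 (helper97): the flux of the core action through the cut-off zones equals the strip terms
of the end actions up to the torques
-/

set_option autoImplicit false
open MeasureTheory Set Filter Topology Complex
open scoped ContDiff

noncomputable section

namespace Crest.Agent.N250.Fv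

open Gc WS Cj Act
open B1 hiding II

/-! ### steps -/

/-- a `C¹` step from `0` at `a` to `1` at `b` -/
structure Stp (a b : ℝ) (κ κ' : ℝ → ℂ) : Prop where
  d : ∀ x, HasDerivAt κ (κ' x) x
  c : Continuous κ'
  lo : ∀ x ≤ a, κ x = 0
  hi : ∀ x, b ≤ x → κ x = 1

namespace Stp

variable {a b R : ℝ} {κ κ' : ℝ → ℂ} (h : Stp a b κ κ')
include h

theorem zlo {x : ℝ} (hx : x ≤ a) : κ' x = 0 :=
  (uniqueDiffWithinAt_Iic x).eq_deriv _ (h.d x).hasDerivWithinAt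
    ((hasDerivWithinAt_const x _ (0 : ℂ)).congr (fun y hy => h.lo y (le_trans hy hx)) (h.lo x hx))

theorem zhi {x : ℝ} (hx : b ≤ x) : κ' x = 0 :=
  (uniqueDiffWithinAt_Ici x).eq_deriv _ (h.d x).hasDerivWithinAt
    ((hasDerivWithinAt_const x _ (1 : ℂ)).congr (fun y hy => h.hi y (hx.trans hy)) (h.hi x hx))

theorem ds (R s : ℝ) : HasDerivAt (fun s => κ (R + 2 * s)) (2 * κ' (R + 2 * s)) s := by
  exact ((h.d (R + 2 * s)).scomp s (((hasDerivAt_id s).const_mul 2).const_add R)).congr_deriv (by simp)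

theorem cut (R : ℝ) : Cut 0 1 (fun s => κ (R + 2 * s)) fun s => 2 * κ' (R + 2 * s) :=
  ⟨fun s _ => (h.ds R s).continuousAt.continuousWithinAt,
    (continuous_const.mul (h.c.comp (by fun_prop))).continuousOn, fun s _ => h.ds R s⟩

/-- change of variables `x = R + 2 s` -/
theorem II_eq (ha : R ≤ a) (hb : b ≤ R + 2) (P : ℝ × ℝ → ℂ) :
    II a b (fun q => κ' q.1 * P ((q.1 - R) / 2, q.2)) = II 0 1 fun z => 2 * κ' (R + 2 * z.1) * P z := by
  simp only [II, intervalIntegral.integral_const_mul]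
  set H : ℝ → ℂ := fun x => κ' x * ∫ θ in (0 : ℝ)..(2 * Real.pi), P ((x - R) / 2, θ) with hH
  have h1 : Function.support H ⊆ Ioc a b := fun x hx => by
    by_contra h'
    rw [mem_Ioc, not_and_or, not_lt, not_le] at h'
    refine hx ?_
    rcases h' with h' | h'
    · simp only [hH, h.zlo h', zero_mul]
    · simp only [hH, h.zhi h'.le, zero_mul]
  have h2 := intervalIntegral.smul_integral_comp_add_mul H (a := 0) (b := 1) 2 R
  rw [intervalIntegral.integral_eq_integral_of_support_subset h1,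
    ← intervalIntegral.integral_eq_integral_of_support_subset
      (h1.trans (Ioc_subset_Ioc (show R + 2 * 0 ≤ a by linarith) (show b ≤ R + 2 * 1 by linarith))), ← h2,
    ← intervalIntegral.integral_smul]
  congr 1; funext s
  simp only [hH, real_smul, add_sub_cancel_left, mul_div_cancel_left₀ s (two_ne_zero' ℝ)]
  push_cast; ring

end Stp

/-! ### moving frames -/

section frame

variable {f : Fin 3 → Fin 3 → ℂ}

theorem On.exp (h : On f) (w : Fin 3 → ℂ) (c : Fin 3) : w c = ∑ k, dot w (f k) * f k c := by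
  have h1 : Matrix.of f * (Matrix.of f).transpose = 1 := by
    ext i j; simpa [Matrix.mul_apply, Matrix.one_apply, dot] using h i j
  have h2 := mul_eq_one_comm.1 h1
  have h3 : ∀ e, ∑ k, f k e * f k c = if e = c then 1 else 0 := fun e => by
    simpa [Matrix.mul_apply, Matrix.one_apply] using congrFun (congrFun h2 e) c
  simp only [dot, Finset.sum_mul, mul_assoc]
  rw [Finset.sum_comm]
  simp only [← Finset.mul_sum, h3, mul_ite, mul_one, mul_zero, Finset.sum_ite_eq', Finset.mem_univ,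
    if_true]

theorem anti {F : ℂ → Fin 3 → Fin 3 → ℂ} {f' : Fin 3 → Fin 3 → ℂ} {t : ℂ} (hF : HasDerivAt F f' t)
    (h : ∀ᶠ u in 𝓝 t, On (F u)) (i k : Fin 3) : dot (f' i) (F t k) = -dot (f' k) (F t i) := by
  have d : ∀ i c, HasDerivAt (fun u => F u i c) (f' i c) t := fun i c =>
    hasDerivAt_pi.1 (hasDerivAt_pi.1 hF i) c
  have h1 : HasDerivAt (fun u => dot (F u i) (F u k)) _ t :=
    HasDerivAt.fun_sum fun c _ => (d i c).fun_mul (d k c)
  have h2 := h1.unique ((hasDerivAt_const t (if i = k then (1 : ℂ) else 0)).congr_of_eventuallyEq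
    (h.mono fun u hu => hu i k))
  simp only [dot, Fin.sum_univ_three] at h2 ⊢
  linear_combination h2

/-- the variation of a polar graph in a rotating frame -/
theorem var_frC {F : ℂ → Fin 3 → Fin 3 → ℂ} {f' : Fin 3 → Fin 3 → ℂ} {t : ℂ} (hF : HasDerivAt F f' t)
    (h : ∀ᶠ u in 𝓝 t, On (F u)) {r : ℂ → ℂ} {r' : ℂ} (hr : HasDerivAt r r' t) (θ : ℝ) (x : ℂ)
    (c : Fin 3) : HasDerivAt (fun u => frC (F u) θ x (r u) 0 c)
      (frC (F t) θ (-(r t * cT (dot (f' 0) (F t 1)) (dot (f' 0) (F t 2)) θ))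
        (x * cT (dot (f' 0) (F t 1)) (dot (f' 0) (F t 2)) θ + r')
        (-(x * sT (dot (f' 0) (F t 1)) (dot (f' 0) (F t 2)) θ) + r t * dot (f' 1) (F t 2)) c) t := by
  have d : ∀ i, HasDerivAt (fun u => F u i c) (f' i c) t := fun i =>
    hasDerivAt_pi.1 (hasDerivAt_pi.1 hF i) c
  have h1 := ((((d 0).const_mul x).fun_add
    (((hr.mul_const (Real.cos θ : ℂ)).sub_const (0 * (Real.sin θ : ℂ))).fun_mul (d 1))).fun_add
    (((hr.mul_const (Real.sin θ : ℂ)).add_const (0 * (Real.cos θ : ℂ))).fun_mul (d 2)))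
  refine HasDerivAt.congr_deriv h1 ?_
  have e0 := On.exp h.self_of_nhds (f' 0) c
  have e1 := On.exp h.self_of_nhds (f' 1) c
  have e2 := On.exp h.self_of_nhds (f' 2) c
  have a00 := anti hF h 0 0
  have a11 := anti hF h 1 1
  have a22 := anti hF h 2 2
  have a10 := anti hF h 1 0
  have a20 := anti hF h 2 0
  have a21 := anti hF h 2 1
  have := cs θ
  simp only [Fin.sum_univ_three, a10, a20, a21, show dot (f' 0) (F t 0) = 0 by linear_combination a00 / 2,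
    show dot (f' 1) (F t 1) = 0 by linear_combination a11 / 2,
    show dot (f' 2) (F t 2) = 0 by linear_combination a22 / 2] at e0 e1 e2
  simp only [frC, cT, sT]
  rw [e0, e1, e2]
  generalize (Real.cos θ : ℂ) = C at *
  generalize (Real.sin θ : ℂ) = S at *
  linear_combination (-(x * (dot (f' 0) (F t 1) * F t 1 c + dot (f' 0) (F t 2) * F t 2 c))) * this

end frame

/-! ### one end -/

variable {X : Type} [TopologicalSpace X] [MeasurableSpace X] {G : Geo X} {ℓ : Ell}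

/-- the radius of the end on the strip -/
def rS (R : ℝ) (z : Par ℓ) (J : Jt ℓ) (y : ℝ × ℝ) : ℂ := Rf (vS R z J y)

/-- the open cut-off zone -/
def Kz (ψ : ℝ × ℝ → X) (a b : ℝ) : Set X := ψ '' (Ioo a b ×ˢ Ico 0 (2 * Real.pi))

/-- a polar chart of the cut-off zone -/
structure Zone (G : Geo X) (ψ : ℝ × ℝ → X) (R a b : ℝ) : Prop where
  h0 : R ≤ a
  h2 : a ≤ b
  h4 : b ≤ R + 1
  pm : ∀ q : ℝ × ℝ, q.1 ∈ Ioo a b → Pm G ψ q
  det : ∀ q : ℝ × ℝ, q.1 ∈ Ioo a b → 0 < Po.det (G.M.x ∘ ψ) q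
  inj : InjOn ψ (Ioo a b ×ˢ Ico 0 (2 * Real.pi))

theorem cd_Rf {v : ℂ} (h : 2 * v ∈ slitPlane) : ContDiffAt ℝ 2 Rf v := by
  have h1 : ContDiffAt ℂ 2 Complex.sqrt (2 * v) :=
    (DifferentiableOn.contDiffOn (fun w hw => (differentiableAt_sqrt hw).differentiableWithinAt)
      isOpen_slitPlane).contDiffAt (isOpen_slitPlane.mem_nhds h)
  exact (h1.restrict_scalars ℝ).comp v (contDiffAt_const.mul contDiffAt_id)

/-- the integrand in the variables `(s, θ)` -/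
def Pz (R : ℝ) (X a : ℂ) (J : Jt ℓ) (a₁ a₂ a₃ : ℂ) (δ : ℝ × ℝ → ℂ) (w : ℝ × ℝ) : ℂ :=
  Mx (ex (gam R X) w.1) (vf R X a J 0 w) (vf R X a J 1 w) (vf R X a J 3 w) (cT a₁ a₂ w.2)
      (sT a₁ a₂ w.2) +
    a₃ * (Lp (ex (gam R X) w.1) (vf R X a J 0 w) (vf R X a J 1 w) (vf R X a J 3 w) * vf R X a J 3 w) -
    Lp (ex (gam R X) w.1) (vf R X a J 0 w) (vf R X a J 1 w) (vf R X a J 3 w) * δ w

namespace Zone

variable {ψ : ℝ × ℝ → X} {R a b : ℝ} (Z : Zone G ψ R a b)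
include Z

theorem str {x : ℝ} (hx : x ∈ Ioo a b) : Icc R (R + 1) ∈ 𝓝 x :=
  Icc_mem_nhds (Z.h0.trans_lt hx.1) (hx.2.trans_le Z.h4)

theorem toInj : Inj G.M ψ (Ioo a b ×ˢ Ico 0 (2 * Real.pi)) :=
  ⟨measurableSet_Ioo.prod measurableSet_Ico, fun q hq => (Z.pm q hq.1).cont.self_of_nhds,
    fun q hq => (Z.pm q hq.1).sm.of_le one_le_two, Z.inj⟩

omit Z in
theorem ev_zone {q : ℝ × ℝ} (hq : q.1 ∈ Ioo a b) : ∀ᶠ y : ℝ × ℝ in 𝓝 q, y.1 ∈ Ioo a b :=
  continuous_fst.continuousAt.eventually (isOpen_Ioo.mem_nhds hq)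

variable {z : Par ℓ} {J : Jt ℓ} {f : Fin 3 → Fin 3 → ℂ} {Y V : Fin 3 → G.SmC}

theorem pc (hj : IsJet (dgam R z.1) J) (h2 : ∀ s θ, 2 * vj R z.1 z.2.1 J s θ 0 ∈ slitPlane)
    (hf : On f) (hm : ∀ q : ℝ × ℝ, q.1 ∈ Ioo a b → pb Y ψ q = pC f (rS R z J) q) {q : ℝ × ℝ}
    (hq : q.1 ∈ Ioo a b) : Pc G ψ Y f (rS R z J) (vS R z J) q where
  toPm := Z.pm q hq
  on := hf
  smr := (cd_Rf (h2 _ _)).comp q ((vS_c2 hj).contDiffAt (prod_mem_nhds (Z.str hq) univ_mem))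
  ne := Rf_ne fun h0 => slitPlane_ne_zero (h2 (tS R q.1) q.2) (mul_eq_zero_of_right 2 h0)
  veq := Eventually.of_forall fun y => by rw [rS, Rf_sq]; ring
  eq := (ev_zone hq).mono hm

/-- the Euler–Lagrange expression vanishes on the matched zone -/
theorem el_zero (hs : Sol R z J) (hr : RegJ R z.1 z.2.1 J)
    (h2 : ∀ s θ, 2 * vj R z.1 z.2.1 J s θ 0 ∈ slitPlane) (hf : On f)
    (hm : ∀ q : ℝ × ℝ, q.1 ∈ Ioo a b → pb Y ψ q = pC f (rS R z J) q) {q : ℝ × ℝ}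
    (hq : q.1 ∈ Ioo a b) : (G.SC.ELX Y).1 (ψ q) = 0 := by
  have P := Z.pc hs.jet h2 hf hm hq
  have r := rd_strip R z.1
  have n := Z.str hq
  have e1 : Po.d1 (vS R z J) q = _ := hs.jet.d1_0 r n (ContinuousLinearMap.id ℝ ℂ)
  have e3 : Po.d2 (vS R z J) q = _ := hs.jet.d2_0 r n (ContinuousLinearMap.id ℝ ℂ)
  have e2 : Po.d1 (Po.d1 (vS R z J)) q = _ := hs.jet.d11 r n (ContinuousLinearMap.id ℝ ℂ)
  have e4 : Po.d1 (Po.d2 (vS R z J)) q = _ := hs.jet.d12 r n (ContinuousLinearMap.id ℝ ℂ)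
  have e5 : Po.d2 (Po.d2 (vS R z J)) q = _ := hs.jet.d22 r n (ContinuousLinearMap.id ℝ ℂ)
  have hQ : QC (vS R z J) q ≠ 0 := by
    rw [QC, e1, e3]; exact slitPlane_ne_zero (hr _ _).2
  have hE : ELC (vS R z J) q = 0 := by
    rw [ELC, e1, e3, e2, e4, e5, ← r.gam q.1 (mem_of_mem_nhds n)]; exact hs.eq _ _
  have := P.EL_pol hQ
  rw [hE, zero_mul, mul_zero] at this
  exact (mul_eq_zero.1 this).resolve_left (pow_ne_zero 3 (P.sg_ne (Z.det q hq)))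

/-- the flux density in the chart -/
theorem fx_eq {κ κ' : ℝ → ℂ} (hκ : Stp a b κ κ') {g : G.SmC}
    (hg : ∀ q : ℝ × ℝ, q.1 ∈ Ioo a b → g.1 (ψ q) = 1 - κ q.1) (hj : IsJet (dgam R z.1) J)
    (hr : RegJ R z.1 z.2.1 J) (h2 : ∀ s θ, 2 * vj R z.1 z.2.1 J s θ 0 ∈ slitPlane) (hf : On f)
    (hm : ∀ q : ℝ × ℝ, q.1 ∈ Ioo a b → pb Y ψ q = pC f (rS R z J) q) {a₁ a₂ a₃ : ℂ}
    {δ : ℝ × ℝ → ℂ} {q : ℝ × ℝ} (hq : q.1 ∈ Ioo a b)
    (hV : pb V ψ q = frC f q.2 (-(rS R z J q * cT a₁ a₂ q.2))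
      (q.1 * cT a₁ a₂ q.2 + δ ((q.1 - R) / 2, q.2) / rS R z J q)
      (-(q.1 * sT a₁ a₂ q.2) + rS R z J q * a₃)) :
    (√(Po.det (G.M.x ∘ ψ) q) : ℝ) * G.fluxC g Y V (ψ q) =
      κ' q.1 * Pz R z.1 z.2.1 J a₁ a₂ a₃ δ ((q.1 - R) / 2, q.2) := by
  have P := Z.pc hj h2 hf hm hq
  have e1 : Po.d1 (vS R z J) q = vf R z.1 z.2.1 J 1 ((q.1 - R) / 2, q.2) :=
    hj.d1_0 (rd_strip R z.1) (Z.str hq) (ContinuousLinearMap.id ℝ ℂ)
  have e3 : Po.d2 (vS R z J) q = vf R z.1 z.2.1 J 3 ((q.1 - R) / 2, q.2) :=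
    hj.d2_0 (rd_strip R z.1) (Z.str hq) (ContinuousLinearMap.id ℝ ℂ)
  have e0 : vS R z J q = vf R z.1 z.2.1 J 0 ((q.1 - R) / 2, q.2) := rfl
  have ex' : ex (gam R z.1) ((q.1 - R) / 2) = q.1 :=
    (rd_strip R z.1).gam q.1 (mem_of_mem_nhds (Z.str hq))
  have ho : Ok (vS R z J q) (Po.d1 (vS R z J) q) (Po.d2 (vS R z J) q) := by
    rw [e1, e3]; exact hr _ _
  have hG : HasFDerivAt (fun y => g.1 (ψ y))
      (-((ContinuousLinearMap.toSpanSingleton ℝ (κ' q.1)).comp (ContinuousLinearMap.fst ℝ ℝ ℝ))) q :=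
    (((hκ.d q.1).hasFDerivAt.comp q hasFDerivAt_fst).const_sub 1).congr_of_eventuallyEq
      ((ev_zone hq).mono hg)
  have g1 : Po.d1 (fun y => g.1 (ψ y)) q = -κ' q.1 := by rw [Po.d1, hG.fderiv]; simp
  have g2 : Po.d2 (fun y => g.1 (ψ y)) q = 0 := by rw [Po.d2, hG.fderiv]; simp
  have key := P.flux_pol (Z.det q hq) ho.Q_ne g g2 (-(rS R z J q * cT a₁ a₂ q.2))
    (q.1 * cT a₁ a₂ q.2 + δ ((q.1 - R) / 2, q.2) / rS R z J q)
    (-(q.1 * sT a₁ a₂ q.2) + rS R z J q * a₃)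
  have hQ : Qf (vS R z J q) (Po.d1 (vS R z J) q) (Po.d2 (vS R z J) q) = _ := P.QC_eq
  have hv1 := P.v1
  have hv2 := P.v2
  have hne := P.ne
  have hW := ho.W_ne
  rw [Geo.fluxC, mul_left_comm, Geo.eX, P.exp_pol, show val V (ψ q) = _ from hV, Geo.sq, key, g1, Pz, ex', ← e0, ← e1,
    ← e3, Mx, Act.Lp, hQ, ← hv1, show Rf (vS R z J q) = rS R z J q from rfl]
  generalize Wf (vS R z J q) (Po.d1 (vS R z J) q) (Po.d2 (vS R z J) q) = W at hW
  rw [hv2]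
  field_simp
  ring

end Zone

theorem Pz_cont {R : ℝ} {X a : ℂ} {J : Jt ℓ} (hr : RegJ R X a J)
    (h2 : ∀ s θ, 2 * vj R X a J s θ 0 ∈ slitPlane) (a₁ a₂ : ℂ) :
    Continuous (fun w : ℝ × ℝ => Mx (ex (gam R X) w.1) (vf R X a J 0 w) (vf R X a J 1 w)
      (vf R X a J 3 w) (cT a₁ a₂ w.2) (sT a₁ a₂ w.2)) ∧
    Continuous fun w : ℝ × ℝ => Lp (ex (gam R X) w.1) (vf R X a J 0 w) (vf R X a J 1 w)
      (vf R X a J 3 w) := by
  have hx : ContinuousOn (fun w : ℝ × ℝ => ex (gam R X) w.1) univ :=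
    ((ex_cont _).comp continuous_fst).continuousOn
  have hv := fun i => (vf_cont R X a J i).continuousOn (s := univ)
  exact ⟨continuousOn_univ.1 (M_c hx (hv 0) (hv 1) (hv 3)
    ((ang_T a₁ a₂).cont.1.comp continuous_snd).continuousOn
    ((ang_T a₁ a₂).cont.2.comp continuous_snd).continuousOn hx hx hx hx (fun _ _ => hr _ _)
    fun _ _ => h2 _ _).1, continuousOn_univ.1 (Lp_c hx (hv 0) (hv 1) (hv 3) fun _ _ => hr _ _)⟩

theorem dv_cont (R : ℝ) (X a X' a' : ℂ) (J' : Jt ℓ) : Continuous (dv R X a X' a' J') := by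
  have h1 := (ex_cont (gam R X)).comp (continuous_fst : Continuous fun z : ℝ × ℝ => z.1)
  have h2 := (ex_cont cb3).comp (continuous_fst : Continuous fun z : ℝ × ℝ => z.1)
  exact (((continuous_const.mul ((h1.pow 2).sub continuous_const)).div_const 2).add
    ((continuous_const.mul h1).mul (continuous_const.mul h2))).add (pv_cont _)

/-- the double integral of the flux density -/
theorem II_Pz {R a b : ℝ} {κ κ' : ℝ → ℂ} (hκ : Stp a b κ κ') (ha : R ≤ a) (hb : b ≤ R + 1)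
    {z : Par ℓ} {J : Jt ℓ} (hs : Sol R z J) (hr : RegJ R z.1 z.2.1 J)
    (h2 : ∀ s θ, 2 * vj R z.1 z.2.1 J s θ 0 ∈ slitPlane) (a₁ a₂ a₃ X' : ℂ) {δ : ℝ × ℝ → ℂ}
    (hδ : Continuous δ) :
    II 0 1 (fun w => 2 * κ' (R + 2 * w.1) * Pz R z.1 z.2.1 J a₁ a₂ a₃ δ w) =
      tq 1 R z.1 z.2.1 J a₁ a₂ a₃ - strip 0 1 (fun s => 2 * κ' (R + 2 * s)) (ex (gam R z.1))
        (fun s => X' * ex cb3 s) (vf R z.1 z.2.1 J 0) (vf R z.1 z.2.1 J 1) (vf R z.1 z.2.1 J 3) δ := by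
  obtain ⟨c1', c2⟩ := Pz_cont hr h2 a₁ a₂
  have c3 := vf_cont R z.1 z.2.1 J 3
  have c0 : Continuous fun w : ℝ × ℝ => 2 * κ' (R + 2 * w.1) :=
    continuous_const.mul (hκ.c.comp (by fun_prop))
  simp only [Pz, mul_sub]
  rw [II_sub zero_le_one (c0.fun_mul (c1'.fun_add ((c2.fun_mul c3).const_mul a₃))).continuousOn
    (c0.fun_mul (c2.fun_mul hδ)).continuousOn]
  congr 1
  · refine (intervalIntegral.integral_congr
      (g := fun s => 2 * κ' (R + 2 * s) * tq 1 R z.1 z.2.1 J a₁ a₂ a₃) fun s hs' => ?_).trans ?_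
    · rw [uIcc_of_le zero_le_one] at hs'
      simp only
      rw [← tq_sol hs hr h2 a₁ a₂ a₃ hs', tq, torque, ax, OI, OI, ← intervalIntegral.integral_const_mul,
        ← intervalIntegral.integral_add (ii_t c1'.continuousOn hs')
          ((ii_t (c2.fun_mul c3).continuousOn hs').const_mul a₃), ← intervalIntegral.integral_const_mul]
    · rw [intervalIntegral.integral_mul_const,
        intervalIntegral.integral_eq_sub_of_hasDerivAt (fun s _ => hκ.ds R s)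
          ((c0.comp (continuous_id.prodMk (continuous_const (y := (0 : ℝ))))).intervalIntegrable 0 1),
        hκ.hi _ (by linarith), hκ.lo _ (by linarith)]
      simp
  · refine II_congr zero_le_one fun w _ => ?_
    by_cases hw : w.1 ≤ 1 / 2
    · simp only [cb3_strip hw, mul_zero, sub_zero, add_zero]
    · simp only [hκ.zhi (show b ≤ R + 2 * w.1 by linarith [not_le.1 hw]), mul_zero, zero_mul]

variable [BorelSpace X] [T2Space X] [SecondCountableTopology X]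

/-- a holomorphic curve of ends matched to the curve `Y` of core maps in the chart `ψ`;
`V` = velocity of `Y`, `F` = moving frame -/
structure Mtc (ψ : ℝ × ℝ → X) (R a b : ℝ) (Y : ℂ → Fin 3 → G.SmC) (V : Fin 3 → G.SmC)
    (F : ℂ → Fin 3 → Fin 3 → ℂ) (f' : Fin 3 → Fin 3 → ℂ) (z : ℂ → Par ℓ) (z' : Par ℓ)
    (J : ℂ → Jt ℓ) (J' : Jt ℓ) (t : ℂ) : Prop where
  dY : ∀ q : ℝ × ℝ, q.1 ∈ Ioo a b → ∀ c, HasDerivAt (fun u => (Y u c).1 (ψ q)) ((V c).1 (ψ q)) t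
  dF : HasDerivAt F f' t
  on : ∀ᶠ u in 𝓝 t, On (F u)
  dz : HasDerivAt z z' t
  dJ : HasDerivAt J J' t
  jet : ∀ᶠ u in 𝓝 t, IsJet (dgam R (z u).1) (J u)
  sol : Sol R (z t) (J t)
  reg : RegJ R (z t).1 (z t).2.1 (J t)
  slit : ∀ s θ, 2 * vj R (z t).1 (z t).2.1 (J t) s θ 0 ∈ slitPlane
  mt : ∀ᶠ u in 𝓝 t, ∀ q : ℝ × ℝ, q.1 ∈ Ioo a b → pb (Y u) ψ q = pC (F u) (rS R (z u) (J u)) q

theorem vf_hd (R : ℝ) {z : ℂ → Par ℓ} {z' : Par ℓ} {J : ℂ → Jt ℓ} {J' : Jt ℓ} {t : ℂ}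
    (hz : HasDerivAt z z' t) (hJ : HasDerivAt J J' t) (w : ℝ × ℝ) :
    HasDerivAt (fun u => vf R (z u).1 (z u).2.1 (J u) 0 w)
      (dv R (z t).1 (z t).2.1 z'.1 z'.2.1 J' w) t := by
  have hX : HasDerivAt (fun u => (z u).1) z'.1 t := hz.fst
  have ha : HasDerivAt (fun u => (z u).2.1) z'.2.1 t := hz.snd.fst
  have hg : HasDerivAt (fun u => ex (gam R (z u).1) w.1) (z'.1 * ex cb3 w.1) t := by
    have e : ∀ X : ℂ, ex (gam R X) w.1 = ex (gam R 0) w.1 + X * ex cb3 w.1 := fun X => by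
      rw [Act.gam_eq R X]; rfl
    simp only [e (z _).1]
    exact (hX.mul_const _).const_add _
  have hw : HasDerivAt (fun u => pv (J u 0) w) (pv (J' 0) w) t :=
    ((pvL _ w).comp (prJ ℓ 0)).hasFDerivAt.comp_hasDerivAt t hJ
  refine HasDerivAt.congr_deriv
    ((((ha.fun_mul ((hg.fun_pow 2).sub_const 2)).div_const 2).const_add 1).fun_add hw) ?_
  simp only [dv]; push_cast; ring

variable {ψ : ℝ × ℝ → X} {R a b : ℝ} {Y : ℂ → Fin 3 → G.SmC} {V : Fin 3 → G.SmC}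
  {F : ℂ → Fin 3 → Fin 3 → ℂ} {f' : Fin 3 → Fin 3 → ℂ} {z : ℂ → Par ℓ} {z' : Par ℓ}
  {J : ℂ → Jt ℓ} {J' : Jt ℓ} {t : ℂ}

/-- the torque term of the end -/
def tqF (R : ℝ) (z : Par ℓ) (J : Jt ℓ) (f f' : Fin 3 → Fin 3 → ℂ) : ℂ :=
  tq 1 R z.1 z.2.1 J (dot (f' 0) (f 1)) (dot (f' 0) (f 2)) (dot (f' 1) (f 2))

/-- the strip term of `actC_deriv` -/
def stF (κ' : ℝ → ℂ) (R : ℝ) (z z' : Par ℓ) (J J' : Jt ℓ) : ℂ :=
  strip 0 1 (fun s => 2 * κ' (R + 2 * s)) (ex (gam R z.1)) (fun s => z'.1 * ex cb3 s)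
    (vf R z.1 z.2.1 J 0) (vf R z.1 z.2.1 J 1) (vf R z.1 z.2.1 J 3) (dv R z.1 z.2.1 z'.1 z'.2.1 J')

theorem int_Rc' (α β : ℝ) (f : ℝ × ℝ → ℂ) :
    ∫ q in Ioo α β ×ˢ Ico 0 (2 * Real.pi), f q = ∫ q in Rc α β, f q := by
  refine setIntegral_congr_set ?_
  rw [Measure.volume_eq_prod]
  exact Measure.set_prod_ae_eq Ioo_ae_eq_Icc Ico_ae_eq_Icc

/-- **one end**: the flux through the cut-off zone -/
theorem flux_end (Z : Zone G ψ R a b) {κ κ' : ℝ → ℂ} (hκ : Stp a b κ κ') {g : G.SmC}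
    (hg : ∀ q : ℝ × ℝ, q.1 ∈ Ioo a b → g.1 (ψ q) = 1 - κ q.1)
    (M : Mtc ψ R a b Y V F f' z z' J J' t) : IntegrableOn (G.fluxC g (Y t) V) (Kz ψ a b) G.M.mu ∧
      ∫ p in Kz ψ a b, G.fluxC g (Y t) V p ∂G.M.mu =
        tqF R (z t) (J t) (F t) f' - stF κ' R (z t) z' (J t) J' := by
  have hc : ContinuousOn (fun q : ℝ × ℝ => κ' q.1 * Pz R (z t).1 (z t).2.1 (J t) (dot (f' 0) (F t 1))
      (dot (f' 0) (F t 2)) (dot (f' 1) (F t 2)) (dv R (z t).1 (z t).2.1 z'.1 z'.2.1 J')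
      ((q.1 - R) / 2, q.2)) (Rc a b) := by
    obtain ⟨c1', c2⟩ := Pz_cont M.reg M.slit (dot (f' 0) (F t 1)) (dot (f' 0) (F t 2))
    exact ((hκ.c.comp continuous_fst).mul (((c1'.add (continuous_const.mul (c2.mul
      (vf_cont ..)))).sub (c2.mul (dv_cont ..))).comp (by fun_prop))).continuousOn
  have he : EqOn (fun q => √(Po.det (G.M.x ∘ ψ) q) • G.fluxC g (Y t) V (ψ q)) _
      (Ioo a b ×ˢ Ico 0 (2 * Real.pi)) := fun q hq => by
    have hq' := hq.1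
    refine Z.fx_eq hκ hg M.sol.jet M.reg M.slit M.on.self_of_nhds M.mt.self_of_nhds
      (a₁ := dot (f' 0) (F t 1)) (a₂ := dot (f' 0) (F t 2)) (a₃ := dot (f' 1) (F t 2))
      (δ := dv R (z t).1 (z t).2.1 z'.1 z'.2.1 J') hq' (funext fun c => ?_)
    have h1 := vf_hd R M.dz M.dJ ((q.1 - R) / 2, q.2)
    have h2 : HasDerivAt (fun u => rS R (z u) (J u) q)
        (dv R (z t).1 (z t).2.1 z'.1 z'.2.1 J' ((q.1 - R) / 2, q.2) / rS R (z t) (J t) q) t := by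
      have h := (sqrt_hd (M.slit (tS R q.1) q.2)).comp_of_eq t (h1.const_mul 2) rfl
      refine HasDerivAt.congr_deriv h ?_
      rw [rS, Rf, vS, vk]; ring
    exact (M.dY q hq' c).unique ((var_frC M.dF M.on h2 q.2 q.1 c).congr_of_eventuallyEq
      (M.mt.mono fun u hu => congrFun (hu q hq') c))
  have hm := Z.toInj.meas
  refine ⟨(Z.toInj.intg _).2 (((hc.integrableOn_compact (isCompact_Rc a b)).mono_set
    (prod_mono Ioo_subset_Icc_self Ico_subset_Icc_self)).congr_fun he.symm hm), ?_⟩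
  have h0 := Z.h0
  have h3 := Z.h4
  rw [Kz, Z.toInj.int, setIntegral_congr_fun hm he, int_Rc', ← Act.II_eq Z.h2 hc,
    hκ.II_eq h0 (by linarith), II_Pz hκ h0 h3 M.sol M.reg M.slit _ _ _ z'.1 (dv_cont ..)]
  rfl

omit [BorelSpace X] [T2Space X] [SecondCountableTopology X] in
/-- the end action with the cut-off `κ (x)` -/
theorem act_end (Z : Zone G ψ R a b) {κ κ' : ℝ → ℂ} (hκ : Stp a b κ κ')
    (M : Mtc ψ R a b Y V F f' z z' J J' t) :
    HasDerivAt (fun u => actC (fun s => κ (R + 2 * s)) R (z u).1 (z u).2.1 (J u))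
      (Far.farI R (z t).1 (z t).2.1 (J t) z'.1 z'.2.1 J' - stF κ' R (z t) z' (J t) J') t := by
  have h := actC_deriv (hκ.cut R) R M.dz M.dJ M.jet M.sol M.reg
  have h0 := Z.h0
  have h3 := Z.h4
  rw [hκ.hi _ (by linarith), hκ.lo _ (by linarith), flux_one, one_mul, zero_mul, sub_zero] at h
  exact h

/-- **the glued first variation**: the strip terms cancel -/
theorem glue_deriv {ι : Type} [Fintype ι] {ψ : ι → ℝ × ℝ → X} (Z : ∀ j, Zone G (ψ j) R a b)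
    (hd : Pairwise fun i j => Disjoint (Kz (ψ i) a b) (Kz (ψ j) a b)) {κ κ' : ℝ → ℂ}
    (hκ : Stp a b κ κ') {g : G.SmC} (hg : ∀ j, ∀ q : ℝ × ℝ, q.1 ∈ Ioo a b → g.1 (ψ j q) = 1 - κ q.1)
    (hs : ∀ p, (∀ j, p ∉ Kz (ψ j) a b) → ∀ e, (G.SC.D e g).1 p = 0)
    {F : ι → ℂ → Fin 3 → Fin 3 → ℂ} {f' : ι → Fin 3 → Fin 3 → ℂ} {z : ι → ℂ → Par ℓ} {z' : ι → Par ℓ}
    {J : ι → ℂ → Jt ℓ} {J' : ι → Jt ℓ}
    (M : ∀ j, Mtc (ψ j) R a b Y V (F j) (f' j) (z j) (z' j) (J j) (J' j) t)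
    {FC : ℂ → ℂ} {B : ℂ} (hC : HasDerivAt FC (B - ∫ p, G.fluxC g (Y t) V p ∂G.M.mu) t) :
    HasDerivAt (fun u => FC u + ∑ j, actC (fun s => κ (R + 2 * s)) R (z j u).1 (z j u).2.1 (J j u))
      (B + ∑ j, (Far.farI R (z j t).1 (z j t).2.1 (J j t) (z' j).1 (z' j).2.1 (J' j) -
        tqF R (z j t) (J j t) (F j t) (f' j))) t := by
  refine (hC.fun_add (HasDerivAt.fun_sum fun j _ => act_end (Z j) hκ (M j))).congr_deriv ?_
  have h1 : ∫ p, G.fluxC g (Y t) V p ∂G.M.mu = ∫ p in ⋃ j, Kz (ψ j) a b, G.fluxC g (Y t) V p ∂G.M.mu :=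
    (setIntegral_eq_integral_of_forall_compl_eq_zero fun p hp => by
      simp only [Geo.fluxC, hs p fun j hj => hp (mem_iUnion.2 ⟨j, hj⟩), zero_mul, Finset.sum_const_zero,
        mul_zero]).symm
  rw [h1, integral_iUnion_fintype (s := fun j => Kz (ψ j) a b) (fun j => (Z j).toInj.meas_image) hd
    fun j => (flux_end (Z j) hκ (hg j) (M j)).1]
  simp only [fun j => (flux_end (Z j) hκ (hg j) (M j)).2, Finset.sum_sub_distrib]
  ring

end Crest.Agent.N250.Fv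

end
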