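import Crest.Agent.N250.R0.Leaf
import Crest.Agent.N250.Se.Dic
import Crest.Agent.N250.Fv.End
import Crest.Agent.N250.Gi.Tq2

/-!
# Row 250 (helper75): the end side of the glued first variation
-/

set_option autoImplicit false
open MeasureTheory Set Filter Topology
open scoped InnerProductSpace ContDiff
open Crest.GeometryTopology.MCF

noncomputable section

namespace Crest.Agent.N250.R0.Vc

open WS Wr B1 Gc
open Crest.Agent.N250.B2 (aa ofR)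
open Crest.Agent.N250.Gi (KK)

variable {S : Mv} (T : St S)

theorem stp {a b : ℝ} (h : a < b) :
    Fv.Stp a b (fun x => (st a b x : ℝ)) fun x => (deriv (st a b) x : ℝ) where
  d x := ((contDiff_st a b).differentiable (by simp) x).hasDerivAt.ofReal_comp
  c := Complex.continuous_ofReal.comp ((contDiff_st a b).continuous_deriv (by simp))
  lo x hx := by rw [st_zero h hx, Complex.ofReal_zero]
  hi x hx := by rw [st_one h hx, Complex.ofReal_one]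

theorem det_pos (j : Fin T.p) {q : ℝ × ℝ} (hq : T.e.R < q.1) : 0 < Po.det (T.G.M.x ∘ T.ψ j) q := by
  have h : T.G.M.x ∘ T.ψ j =ᶠ[𝓝 q] Po.pX (T.e.Q j) (T.e.r j) := (T.pl hq).eq
  have P := Po.ends_pol T.reg T.e j hq
  have e : Po.det (T.G.M.x ∘ T.ψ j) q = Po.det (Po.pX (T.e.Q j) (T.e.r j)) q := by
    simp only [Po.det, Po.d1, Po.d2, h.fderiv_eq]
  rw [e, P.det_eq]
  exact P.Qv_pos

theorem wrap (j : Fin T.p) {q : ℝ × ℝ} (hq : T.e.R < q.1) (h : q.2 ∈ Ico 0 (2 * Real.pi)) :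
    ∃ θ ∈ Ioc (-Real.pi) Real.pi, T.ψ j (q.1, θ) = T.ψ j q ∧
      q.2 = if 0 ≤ θ then θ else θ + 2 * Real.pi := by
  have := Real.pi_pos
  by_cases h1 : q.2 ≤ Real.pi
  · exact ⟨q.2, ⟨by linarith [h.1], h1⟩, rfl, (if_pos h.1).symm⟩
  · refine ⟨q.2 - 2 * Real.pi, ⟨by linarith, by linarith [h.2]⟩, ?_, ?_⟩
    · rw [← T.ψ_per hq, sub_add_cancel]
    · rw [if_neg (by linarith [h.2]), sub_add_cancel]

theorem inj_ψ (j : Fin T.p) {I : Set ℝ} (hI : I ⊆ Ioi T.e.R) :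
    InjOn (T.ψ j) (I ×ˢ Ico 0 (2 * Real.pi)) := fun x hx y hy h => by
  obtain ⟨θ, h1, h2, h3⟩ := wrap T j (hI hx.1) hx.2
  obtain ⟨θ', h1', h2', h3'⟩ := wrap T j (hI hy.1) hy.2
  have := T.injOn_ψ hI (j := j) (x₁ := (x.1, θ)) (x₂ := (y.1, θ')) ⟨hx.1, h1⟩ ⟨hy.1, h1'⟩
    (by rw [h2, h2', h])
  obtain ⟨e1, rfl⟩ := Prod.mk.inj this
  exact Prod.ext e1 (h3.trans h3'.symm)

theorem unwrap (j : Fin T.p) {q : ℝ × ℝ} (hq : T.e.R < q.1) :
    ∃ θ ∈ Ico 0 (2 * Real.pi), T.ψ j (q.1, θ) = T.ψ j q := by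
  have hp : Function.Periodic (fun θ => T.ψ j (q.1, θ)) (2 * Real.pi) := T.ψ_per hq
  obtain ⟨θ, h1, h2⟩ := hp.exists_mem_Ico₀ Real.two_pi_pos q.2
  exact ⟨θ, h1, h2.symm⟩

theorem zone (j : Fin T.p) {a b : ℝ} (ha : T.R ≤ a) (hab : a ≤ b) (hb : b ≤ T.R + 1) :
    Fv.Zone T.G (T.ψ j) T.R a b :=
  have h : ∀ {x : ℝ}, x ∈ Ioo a b → T.e.R < x := fun hx => T.eR_lt_R.trans (ha.trans_lt hx.1)
  ⟨ha, hab, hb, fun _ hq => T.pm (h hq), fun _ hq => det_pos T j (h hq), inj_ψ T j fun _ => h⟩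

theorem disj {a b : ℝ} (ha : T.R ≤ a) :
    Pairwise fun i j => Disjoint (Fv.Kz (T.ψ i) a b) (Fv.Kz (T.ψ j) a b) := fun i j hij => by
  refine Set.disjoint_left.2 ?_
  rintro _ ⟨q, hq, rfl⟩ ⟨q', hq', e⟩
  have h := T.eR_lt_R.trans (ha.trans_lt hq.1.1)
  have h' := T.eR_lt_R.trans (ha.trans_lt hq'.1.1)
  exact tube_disj hij (T.ψ_tube h' h') (e ▸ T.ψ_tube h h)

theorem D_ze {a b : ℝ} (ha : -7 < a) (hab : a < b) (p : S.sl 0)
    (hp : ∀ j, p ∉ Fv.Kz (T.ψ j) (T.R + a) (T.R + b)) (e : Fin 3) :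
    (T.G.SC.D e (T.G.oR (T.ze a b))).1 p = 0 := by
  have key : (T.ze a b).1 p = 1 ∨ (T.ze a b).1 p = 0 := by
    obtain ⟨c, h1, h2⟩ := exists_between (T.eR_lt ha)
    rcases T.off_or_ψ h1 h2 p with h | ⟨j, q, hq, rfl⟩
    · exact Or.inl (T.ze_off hab h)
    · have hq' := h1.trans hq
      by_cases k1 : q.1 ≤ T.R + a
      · exact Or.inl (T.ze_ψ_one ha hab hq' k1)
      by_cases k2 : T.R + b ≤ q.1
      · exact Or.inr (T.ze_ψ_zero ha hab k2)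
      obtain ⟨θ, k3, k4⟩ := unwrap T j hq'
      exact (hp j ⟨(q.1, θ), ⟨⟨not_le.1 k1, not_le.1 k2⟩, k3⟩, k4⟩).elim
  rw [T.G.D_oR]
  change ((T.G.M.pre.D e (T.ze a b).1 p : ℝ) : ℂ) = 0
  rw [Complex.ofReal_eq_zero]
  rcases key with h | h
  · exact N222.Imm.D_eq_zero_of_isLocalMax (.of_forall fun y => h ▸ T.ze_le_one a b y) e
  · have h1 := N222.Imm.D_eq_zero_of_isLocalMax (M := T.G.M) (f := fun y => -1 * (T.ze a b).1 y)
      (p := p) (.of_forall fun y => by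
        have := T.ze_nonneg a b y
        simp only [h]; linarith) e
    rw [N222.Imm.D_const_mul _ (N222.Imm.Sm.diffAt (T.ze a b).2 p)] at h1
    linarith

variable {T} {F : Fa T} {σ : Scale T.G} {N : ℕ} {ξ : ℂ × (F.I → ℂ) → F.Ξ σ} {ρ r X1 θ : ℝ}
  {q : ℂ × (F.I → ℂ)}

/-- the parameters of the end `j` along a family -/
def zq (N : ℕ) (ξ : ℂ × (F.I → ℂ) → F.Ξ σ) (j : Fin T.p) (q : ℂ × (F.I → ℂ)) : Par T.ℓ :=
  F.zE N q.1 (aa q.2) (ξ q) j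

theorem zq_eq (j : Fin T.p) : zq N ξ j q = Gi.wf T.ℓ N (q.1, q.2 (Sum.inr j), F.bq ξ j q) := rfl

theorem Jq_eq (j : Fin T.p) : Gi.Jq T.U N j (F.bq ξ j) q = T.U (zq N ξ j q) := rfl

/-- the angles of the end `j` -/
def an (β : T.Bt) (j : Fin T.p) : Fin 2 → ℂ := fun i => β (j, i)

/-- the velocity of the frame -/
def fD (j : Fin T.p) (β β' : T.Bt) (i c : Fin 3) : ℂ :=
  ∑ l, Ro.sk (an β' j 0 * Complex.cos (an β j 1)) (an β' j 1) (an β' j 0 * Complex.sin (an β j 1)) i l *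
    fR (T.e.Q j) (an β j) l c

theorem hd_line {P V : Type*} [NormedAddCommGroup P] [NormedSpace ℂ P] [NormedAddCommGroup V]
    [NormedSpace ℂ V] {f : P → V} {q : P} (h : DifferentiableAt ℂ f q) (v : P) :
    HasDerivAt (fun u : ℂ => f (q + u • v)) (fderiv ℂ f q v) 0 := by
  have h1 : HasDerivAt (fun u : ℂ => q + u • v) v 0 := by
    simpa using ((hasDerivAt_id (0 : ℂ)).smul_const v).const_add q
  exact h.hasFDerivAt.comp_hasDerivAt_of_eq 0 h1 (by simp)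

section

variable (h : F.Gf N ξ ρ r X1 θ) (hq : q ∈ Om r (KK N - 1 / 4) X1 θ)
include h hq

theorem nhds : Om r (KK N - 1 / 4) X1 θ ∈ 𝓝 q :=
  (Gl.isOpen_Om h.r_pos _ (by linarith [h.X1_ge]) _).mem_nhds hq

theorem ev_line (v : ℂ × (F.I → ℂ)) : ∀ᶠ u : ℂ in 𝓝 0, q + u • v ∈ Om r (KK N - 1 / 4) X1 θ := by
  have hc : ContinuousAt (fun u : ℂ => q + u • v) 0 := by fun_prop
  exact hc.preimage_mem_nhds (by simpa using nhds h hq)

theorem d_ξ : DifferentiableAt ℂ ξ q := h.hol.differentiableAt (nhds h hq)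

theorem d_β : DifferentiableAt ℂ (fun q => (ξ q).2.2) q := (d_ξ h hq).snd.snd

theorem d_z (j : Fin T.p) : DifferentiableAt ℂ (zq N ξ j) q :=
  ((h.en j).big.diff ((h.en j).ow j hq)).comp q
    (f := fun q : ℂ × (F.I → ℂ) => (q.1, q.2 (Sum.inr j), F.bq ξ j q))
    (differentiableAt_fst.prodMk (DifferentiableAt.prodMk (by fun_prop)
      ((h.en j).hol.differentiableAt (nhds h hq))))

theorem d_J (j : Fin T.p) : DifferentiableAt ℂ (Gi.Jq T.U N j (F.bq ξ j)) q :=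
  ((h.en j).diff j).differentiableAt (nhds h hq)

theorem dom (j : Fin T.p) : zq N ξ j q ∈ T.Dm := (h.en j).dom j hq

theorem fd_z (j : Fin T.p) (v : ℂ × (F.I → ℂ)) : (fderiv ℂ (zq N ξ j) q v).1 = v.1 ∧
    (fderiv ℂ (zq N ξ j) q v).2.1 = v.2 (Sum.inr j) := by
  have h1 := hd_line (d_z h hq j) v
  have h2 : HasDerivAt (fun u : ℂ => (zq N ξ j (q + u • v)).1) (fderiv ℂ (zq N ξ j) q v).1 0 := h1.fst
  have h3 : HasDerivAt (fun u : ℂ => (zq N ξ j (q + u • v)).2.1) (fderiv ℂ (zq N ξ j) q v).2.1 0 :=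
    h1.snd.fst
  refine ⟨h2.unique ?_, h3.unique ?_⟩
  · change HasDerivAt (fun u : ℂ => q.1 + u * v.1) _ 0
    simpa using ((hasDerivAt_id (0 : ℂ)).mul_const v.1).const_add q.1
  · change HasDerivAt (fun u : ℂ => q.2 (Sum.inr j) + u * v.2 (Sum.inr j)) _ 0
    simpa using ((hasDerivAt_id (0 : ℂ)).mul_const (v.2 (Sum.inr j))).const_add (q.2 (Sum.inr j))

theorem pb_eq (j : Fin T.p) {y : ℝ × ℝ} (h1 : T.R < y.1) (h2 : y.1 < T.R + 1 / 3) :
    Cj.pb (F.Y (ξ q)) (T.ψ j) y = Cj.pC (fR (T.e.Q j) (an (ξ q).2.2 j))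
      (Fv.rS T.R (zq N ξ j q) (T.U (zq N ξ j q))) y := by
  have e := (h.mat q hq).mt j y h1 h2
  rw [Fa.Y, F.Xh_ψ _ _ (by linarith), Cj.pC, e, Cj.pC, Fv.rS, Act.Rf, Complex.sqrt, ← one_div]
  rfl

theorem el_zero (hG : T.Good) (j : Fin T.p) {y : ℝ × ℝ} (h1 : T.R < y.1) (h2 : y.1 < T.R + 1 / 3) :
    (T.G.SC.ELX (F.Y (ξ q))).1 (T.ψ j y) = 0 :=
  (zone T j le_rfl (by linarith) (by linarith)).el_zero (T.hU.sol _ (dom h hq j))
    (hG.reg _ (dom h hq j)).1 (hG.reg _ (dom h hq j)).2 (on_fR _ _)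
    (fun _ hy => pb_eq h hq j hy.1 hy.2) ⟨h1, h2⟩

theorem mtc (hG : T.Good) (v : ℂ × (F.I → ℂ)) {V : Fin 3 → T.G.SmC}
    (dY : ∀ p, T.G.ζ.1 p = 1 → ∀ c,
      HasDerivAt (fun u : ℂ => (F.Y (ξ (q + u • v)) c).1 p) ((V c).1 p) 0) (j : Fin T.p) :
    Fv.Mtc (T.ψ j) T.R (T.R + 1 / 10) (T.R + 1 / 3) (fun u => F.Y (ξ (q + u • v))) V
      (fun u => fR (T.e.Q j) (an (ξ (q + u • v)).2.2 j))
      (fD j (ξ q).2.2 (fderiv ℂ (fun q => (ξ q).2.2) q v))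
      (fun u => zq N ξ j (q + u • v)) (fderiv ℂ (zq N ξ j) q v)
      (fun u => Gi.Jq T.U N j (F.bq ξ j) (q + u • v)) (fderiv ℂ (Gi.Jq T.U N j (F.bq ξ j)) q v) 0 where
  dY y hy := dY _ (T.ζ_ψ (T.eR_lt' (by linarith [hy.1])) (by linarith [hy.2]))
  dF := by
    have h1 := hasDerivAt_pi.1 (hd_line (d_β h hq) v)
    have h2 : HasDerivAt (fun u : ℂ => an (ξ (q + u • v)).2.2 j)
        (an (fderiv ℂ (fun q => (ξ q).2.2) q v) j) 0 := hasDerivAt_pi.2 fun i => h1 (j, i)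
    refine hasDerivAt_pi.2 fun i => hasDerivAt_pi.2 fun c => ?_
    have h3 := Ro.hasDerivAt_rf h2 (Cj.fQ (T.e.Q j)) i c
    rw [zero_smul, add_zero] at h3
    exact h3
  on := .of_forall fun _ => on_fR _ _
  dz := hd_line (d_z h hq j) v
  dJ := hd_line (d_J h hq j) v
  jet := (ev_line h hq v).mono fun _ hu => (T.hU.sol _ (dom h hu j)).jet
  sol := T.hU.sol _ (dom h (ev_line h hq v).self_of_nhds j)
  reg := (hG.reg _ (dom h (ev_line h hq v).self_of_nhds j)).1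
  slit := (hG.reg _ (dom h (ev_line h hq v).self_of_nhds j)).2
  mt := (ev_line h hq v).mono fun _ hu _ hy => pb_eq h hu j (by linarith [hy.1]) hy.2

theorem d_A (hG : T.Good) (hA : DifferentiableAt ℂ (fun z => T.AC (F.Y z)) (ξ q)) :
    DifferentiableAt ℂ (F.Aq N ξ) q := by
  refine (hA.comp q (d_ξ h hq)).add (DifferentiableAt.fun_sum fun j _ => ?_)
  exact (Act.actC_diffAt ((stp (a := T.R + 1 / 10) (b := T.R + 1 / 3) (by linarith)).cut T.R).1 T.R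
    (y := (q.1, q.2 (Sum.inr j), Gi.Jq T.U N j (F.bq ξ j) q)) (hG.reg _ (dom h hq j)).1).comp q
    (f := fun q : ℂ × (F.I → ℂ) => (q.1, q.2 (Sum.inr j), Gi.Jq T.U N j (F.bq ξ j) q))
    (differentiableAt_fst.prodMk (DifferentiableAt.prodMk (by fun_prop) (d_J h hq j)))

/-- **the glued first variation** from its core part -/
theorem fd_A (hG : T.Good) (hA : DifferentiableAt ℂ (fun z => T.AC (F.Y z)) (ξ q))
    (v : ℂ × (F.I → ℂ)) {V : Fin 3 → T.G.SmC} {B : ℂ}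
    (dY : ∀ p, T.G.ζ.1 p = 1 → ∀ c,
      HasDerivAt (fun u : ℂ => (F.Y (ξ (q + u • v)) c).1 p) ((V c).1 p) 0)
    (hC : fderiv ℂ (fun z => T.AC (F.Y z)) (ξ q) (fderiv ℂ ξ q v) =
      B - ∫ p, T.G.fluxC (T.G.oR T.ζA) (F.Y (ξ q)) V p ∂T.G.M.mu) :
    fderiv ℂ (F.Aq N ξ) q v = B + ∑ j,
      (Far.farI T.R q.1 (q.2 (Sum.inr j)) (Gi.Jq T.U N j (F.bq ξ j) q) v.1 (v.2 (Sum.inr j))
        (fderiv ℂ (Gi.Jq T.U N j (F.bq ξ j)) q v) +
      -Fv.tqF T.R (zq N ξ j q) (Gi.Jq T.U N j (F.bq ξ j) q) (fR (T.e.Q j) (an (ξ q).2.2 j))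
        (fD j (ξ q).2.2 (fderiv ℂ (fun q => (ξ q).2.2) q v))) := by
  have h1 := hd_line (hA.comp q (d_ξ h hq)) v
  rw [fderiv_comp q hA (d_ξ h hq), ContinuousLinearMap.comp_apply, hC] at h1
  have h2 := Fv.glue_deriv (fun j => zone T j (by linarith) (by linarith) (by linarith))
    (disj T (by linarith)) (stp (a := T.R + 1 / 10) (b := T.R + 1 / 3) (by linarith))
    (g := T.G.oR T.ζA) (fun j y hy => by
      change (((T.ze _ _).1 (T.ψ j y) : ℝ) : ℂ) = _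
      rw [T.ze_ψ (by norm_num) (by norm_num) (T.eR_lt' (by linarith [hy.1]))]
      push_cast; rfl)
    (D_ze T (by norm_num) (by norm_num)) (mtc h hq hG v dY) (B := B)
    (FC := fun u => T.AC (F.Y (ξ (q + u • v)))) (by simp only [zero_smul, add_zero]; exact h1)
  have h3 := (hd_line (d_A h hq hG hA) v).unique h2
  simp only [zero_smul, add_zero, (fd_z h hq _ v).1, (fd_z h hq _ v).2, sub_eq_add_neg] at h3
  exact h3

end

end Crest.Agent.N250.R0.Vc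

end
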