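import Crest.Agent.N250.Fv.Chain
import Crest.Agent.N250.Fv.Bulk
import Crest.Agent.N250.R0.CjE

/-!
# Row 250 (helper75): the torque term and the bulk data of the glued first variation
-/

set_option autoImplicit false
open MeasureTheory Set Filter Topology
open scoped InnerProductSpace ContDiff
open Crest.GeometryTopology.MCF

noncomputable section

namespace Crest.Agent.N250.R0.Vc

open WS Wr B1 Gc
open Crest.Agent.N250.B2 (aa ofR)
open Crest.Agent.N250.Gi (KK)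

theorem exp_le {z : ℂ} (h : ‖z‖ ≤ 1) : ‖Complex.exp z‖ ≤ 3 :=
  (Complex.norm_exp_le_exp_norm z).trans ((Real.exp_le_exp.2 h).trans
    (Real.exp_one_lt_d9.le.trans (by norm_num)))

theorem cos_le {z : ℂ} (h : ‖z‖ ≤ 1) : ‖Complex.cos z‖ ≤ 3 := by
  have h1 := exp_le (z := z * Complex.I) (by simpa using h)
  have h2 := exp_le (z := -z * Complex.I) (by simpa using h)
  rw [Complex.cos, norm_div, Complex.norm_two]
  linarith [norm_add_le (Complex.exp (z * Complex.I)) (Complex.exp (-z * Complex.I))]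

theorem sin_le {z : ℂ} (h : ‖z‖ ≤ 1) : ‖Complex.sin z‖ ≤ 3 := by
  have h1 := exp_le (z := z * Complex.I) (by simpa using h)
  have h2 := exp_le (z := -z * Complex.I) (by simpa using h)
  rw [Complex.sin, norm_div, Complex.norm_two, norm_mul, Complex.norm_I]
  linarith [norm_sub_le (Complex.exp (-z * Complex.I)) (Complex.exp (z * Complex.I))]

variable {S : Mv} {T : St S}

theorem dot_fD (j : Fin T.p) (β β' : T.Bt) (i k : Fin 3) :
    dot (fD j β β' i) (fR (T.e.Q j) (an β j) k) = Ro.sk (an β' j 0 * Complex.cos (an β j 1))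
      (an β' j 1) (an β' j 0 * Complex.sin (an β j 1)) i k := by
  have h := on_fR (T.e.Q j) (an β j)
  have e : dot (fD j β β' i) (fR (T.e.Q j) (an β j) k) = ∑ l, Ro.sk (an β' j 0 *
      Complex.cos (an β j 1)) (an β' j 1) (an β' j 0 * Complex.sin (an β j 1)) i l *
        dot (fR (T.e.Q j) (an β j) l) (fR (T.e.Q j) (an β j) k) := by
    simp only [dot, fD, Fin.sum_univ_three]; ring
  simp only [e, h _ k, mul_ite, mul_one, mul_zero, Finset.sum_ite_eq', Finset.mem_univ, if_true]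

variable {F : Fa T} {σ : Scale T.G} {N : ℕ} {ξ : ℂ × (F.I → ℂ) → F.Ξ σ} {ρ r X1 θ : ℝ}

/-- the torque term -/
theorem tq_le (h : F.Gf N ξ ρ r X1 θ) (hG : T.Good) {X : ℝ} {w : F.I → ℂ}
    (hq : ((X : ℂ), w) ∈ Om r (KK N - 1 / 4) X1 θ) (j : Fin T.p) {β : T.Bt} (hβ : ‖β‖ ≤ 1)
    (β' : T.Bt) : ‖Fv.tqF T.R (zq N ξ j (X, w)) (Gi.Jq T.U N j (F.bq ξ j) (X, w))
      (fR (T.e.Q j) (an β j)) (fD j β β')‖ ≤
      3168 * Real.pi * Real.exp (-X ^ 2 / 4) * X ^ (-(2 * (13 / 8 : ℝ))) * ‖β'‖ := by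
  have E := h.en j
  obtain ⟨c, CD, C, hF⟩ := hG.fm
  have hX : 2 ≤ X := h.X1_ge.trans hq.1.le
  have b0 : ∀ i, ‖an β' j i‖ ≤ ‖β'‖ := fun i => norm_le_pi_norm β' (j, i)
  have b1 : ‖an β j 1‖ ≤ 1 := (norm_le_pi_norm β (j, 1)).trans hβ
  have n0 := norm_nonneg β'
  have s1 : Sol T.R ((X : ℂ), w (Sum.inr j), wd (F.bq ξ j (X, w)) (Gi.hN N X (w (Sum.inr j))))
      (Gi.Jq T.U N j (F.bq ξ j) (X, w)) := E.sol j hq
  have s2 : Adm T.k.K1 X (w (Sum.inr j)) := Gi.adm_mono E.K1le (hq.2.2.2 j)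
  have s3 : HJ.Adm N X (et (w (Sum.inr j)) X) := E.hj j hq
  have s4 : InB T.R T.k.K1 (13 / 8) (7 / 4) X (w (Sum.inr j)) T.k.ε1
      (Gi.Jq T.U N j (F.bq ξ j) (X, w)) := E.inB j hq
  have s5 : RegJ T.R X (w (Sum.inr j)) (Gi.Jq T.U N j (F.bq ξ j) (X, w)) :=
    (hG.reg _ (dom h hq j)).1
  have s6 : ∀ s φ, 0 < (vj T.R X (w (Sum.inr j)) (Gi.Jq T.U N j (F.bq ξ j) (X, w)) s φ 0).re :=
    CjE.vj_re_pos (T := T) (z := zq N ξ j (X, w)) hF.sz (dom h hq j)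
  have k := Far.tq_all E.big.N0 E.ex E.K0.le hX s2 s3 E.ε1le s1 rfl rfl rfl s4 s5 s6
    (norm_mul_le_of_le (b0 0) (cos_le b1)) ((b0 1).trans (by linarith))
    (norm_mul_le_of_le (b0 0) (sin_le b1)) (s := 1) ⟨zero_le_one, le_rfl⟩
  have e : (X ^ (-(13 / 8) : ℝ)) ^ 2 = X ^ (-(2 * (13 / 8 : ℝ))) := by
    rw [← Real.rpow_natCast, ← Real.rpow_mul (by linarith)]; norm_num
  rw [e] at k
  have e2 : Fv.tqF T.R (zq N ξ j (X, w)) (Gi.Jq T.U N j (F.bq ξ j) (X, w))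
      (fR (T.e.Q j) (an β j)) (fD j β β') = Act.tq 1 T.R X (w (Sum.inr j))
      (Gi.Jq T.U N j (F.bq ξ j) (X, w)) (an β' j 0 * Complex.cos (an β j 1)) (an β' j 1)
      (an β' j 0 * Complex.sin (an β j 1)) := by
    rw [Fv.tqF, dot_fD, dot_fD, dot_fD]; rfl
  rw [e2]
  exact k.trans_eq (by ring)

theorem mem_Om (h : F.Gf N ξ ρ r X1 θ) {X : ℝ} (hX : X1 < X) {w : F.I → ℂ}
    (hw : w ∈ DomA r (KK N - 1 / 4) X) : ((X : ℂ), w) ∈ Om r (KK N - 1 / 4) X1 θ :=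
  ⟨hX, by simpa using div_pos h.θ_pos (show 0 < X by linarith [h.X1_ge]), hw⟩

theorem tq_bd (h : F.Gf N ξ ρ r X1 θ) (hG : T.Good) (hρ : ρ ≤ 1) : ∃ CT : ℝ, ∀ X : ℝ, X1 < X →
    ∀ w ∈ DomA r (KK N - 1 / 4) X, ∀ (j : Fin T.p) (β' : T.Bt),
      ‖Fv.tqF T.R (zq N ξ j (X, w)) (Gi.Jq T.U N j (F.bq ξ j) (X, w))
        (fR (T.e.Q j) (an (ξ (X, w)).2.2 j)) (fD j (ξ (X, w)).2.2 β')‖ ≤
      CT * Real.exp (-X ^ 2 / 4) * X ^ (-(2 * (13 / 8 : ℝ))) * ‖β'‖ :=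
  ⟨_, fun _ hX _ hw j β' => tq_le h hG (mem_Om h hX hw) j (((norm_snd_le _).trans (norm_snd_le _)).trans
    ((h.small _ (mem_Om h hX hw)).1.le.trans hρ)) β'⟩

theorem not_tube {k : F.I} {p : S.sl 0} (hp : p ∈ tsupport (F.φ k).1) {a : ℝ} (ha : -2 ≤ a)
    (j : Fin T.p) : ((p : E), (0 : ℝ)) ∉ tube T.e j (T.R + a) := fun h =>
  (F.supp k p hp).2 j (tube_mono (by linarith) h)

theorem ζA_one {k : F.I} {p : S.sl 0} (hp : p ∈ tsupport (F.φ k).1) : T.ζA.1 p = 1 :=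
  T.ze_off (by norm_num) fun j => (tube_or_off' T.sta (T.eR_lt (by norm_num))
    (show T.R + 0 < _ by linarith) p.2 j).resolve_left (not_tube hp (by norm_num) j)

theorem ζ_one {k : F.I} {p : S.sl 0} (hp : p ∈ tsupport (F.φ k).1) : T.G.ζ.1 p = 1 :=
  T.ζ_one_of_ne (a := 1 / 10) (b := 1 / 3) (by norm_num) (by norm_num) (by norm_num)
    (by rw [ζA_one hp]; exact one_ne_zero)

/-- the bulk data -/
theorem bk {X : ℂ} {a : Fin T.p → ℂ} {z : F.Ξ σ} (M : F.Mat N X a z) {u' : T.G.SmC}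
    {V : Fin 3 → T.G.SmC} (hV : ∀ k, ∀ p ∈ tsupport (F.φ k).1, ∀ c,
      (V c).1 p = u'.1 p * (F.D.VV (T.TT z.2.2) c).1 p) :
    F.D.Bk (T.G.oR T.ζA) (F.w z) (T.TT z.2.2) (F.c z) u' V where
  one k p hp := by
    change ((T.ζA.1 p : ℝ) : ℂ) = 1
    rw [ζA_one hp, Complex.ofReal_one]
  on k p hp := (M.eq p (not_tube hp (by norm_num))).symm
  off p h0 hp := by
    have h1 := M.eq p fun j hj => h0 (by
      change ((T.ζA.1 p : ℝ) : ℂ) = 0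
      exact Complex.ofReal_eq_zero.2 (zeta_zero (p := ((p : E), (0 : ℝ))) (by linarith) hj))
    exact F.D.ELX_off h1.2 h1.1 hp
  var := hV

end Crest.Agent.N250.R0.Vc

end
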