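import Crest.Agent.N250.Fv.Tqc
import Crest.Agent.N250.Vr.Inst

/-!
# Row 250 (helper75): the leaf `VarL`
-/

set_option autoImplicit false
open MeasureTheory Set Filter Topology
open Crest.GeometryTopology.MCF

noncomputable section

namespace Crest.Agent.N250.R0.Vc

open WS Wr B1 Gc

variable {S : Mv} {T : St S} {F : Fa T} {σ : Scale T.G} {r0 : ℝ}

theorem core (V : F.Vc σ r0) {N : ℕ} {X : ℂ} {a : Fin T.p → ℂ} {z : F.Ξ σ} (hz : ‖z‖ < r0)
    (M : F.Mat N X a z) (v : F.Ξ σ) : fderiv ℂ (fun z : F.Ξ σ => T.AC (F.Y z)) z v =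
      ∑ k, F.c z k * fderiv ℂ F.II z v k -
        ∫ p, T.G.fluxC (T.G.oR T.ζA) (F.Y z) (F.dY z v) p ∂T.G.M.mu := by
  have h := (bk M (u' := F.w v) (V := F.dY z v) fun k p hp c => F.dY_core z v hp c).fam
    (w := F.w) (T := fun z : F.Ξ σ => T.TT z.2.2) (mem_ball_zero_iff.2 hz) v V.hf
    (fun k p hp => ⟨(V.fw p (F.φ_Kz k hp) z).eq v, (V.fw p (F.φ_Kz k hp) z).diff⟩)
    (fun k p hp c => (V.fY p (F.φ_Kz k hp) z c).eq v)
    fun k p hp a c => (V.fJ p (F.φ_Kz k hp) z a c).eq v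
  rw [V.fAC hz]
  simp only [V.fII_apply hz]
  exact congrArg (· - _) h.2

theorem varD (hG : T.Good) (V : F.Vc σ r0) : F.VarD σ := by
  refine ⟨min r0 1, lt_min V.r_pos one_pos, fun N ξ r X1 θ h => ?_⟩
  obtain ⟨CT, hT⟩ := tq_bd h hG (min_le_right _ _)
  refine ⟨CT, fun X hX w hw δ v => ⟨_, fun j => (norm_neg _).trans_le (hT X hX w hw j _), ?_⟩⟩
  have hq := mem_Om h hX hw
  have hz := (h.small _ hq).1.trans_le (min_le_left _ _)
  have e : fderiv ℂ (fun q => F.II (ξ q)) (X, w) (δ, v) =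
      fderiv ℂ F.II (ξ (X, w)) (fderiv ℂ ξ (X, w) (δ, v)) :=
    congrArg (· (δ, v)) (fderiv_comp _ (V.dII' hz) (d_ξ h hq))
  rw [e]
  refine fd_A h hq hG (V.dAC hz) (δ, v) (fun p hp c => ?_) (core V hz (h.mat _ hq) _)
  have := V.cY hp (hd_line (d_ξ h hq) (δ, v)) c
  rwa [zero_smul, add_zero] at this

theorem varL : VarL := fun _ _ hG F => F.vc.mono fun _ h _ => h.elim fun _ V => varD hG V

end Crest.Agent.N250.R0.Vc

end
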